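import Vale.Agent.P092GK.Kak
import Vale.Agent.P092.H793.Re.L4
import Vale.Agent.P092RG.OfSr

/-!
P092, real bridge (helper96): a group with a flag package of rank one has real rank one.
-/

set_option linter.all false

open Matrix Filter Topology

namespace Vale.Agent.P092RB

open P092 P092.H793.Re P092GK

variable {n : ℕ} {G : Type} [Group G] [TopologicalSpace G] {ρ : G →* SLn n}

/-- a proper class function -/
noncomputable def tr2 (ρ : G →* SLn n) (g : G) : ℝ := (ρ g).1.trace + (ρ g⁻¹).1.trace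

theorem tr2_conj (c g : G) : tr2 ρ (c⁻¹ * g * c) = tr2 ρ g := by
  have : ∀ g, (ρ (c⁻¹ * g * c)).1.trace = (ρ g).1.trace := fun g => by
    rw [map_mul, SpecialLinearGroup.coe_mul, trace_mul_comm, ← SpecialLinearGroup.coe_mul, ← map_mul,
      ← mul_assoc, mul_inv_cancel, one_mul]
  rw [tr2, tr2, this, ← this g⁻¹]
  congr 4
  group

theorem tr2_cont (he : IsClosedEmbedding ρ) : Continuous (tr2 ρ) := by
  haveI := topGroup he
  have h := (emb_mat he).continuous
  exact h.matrix_trace.add (h.comp continuous_inv).matrix_trace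

/-- `g` is the exponential of the diagonal matrix `x` -/
def Ex (ρ : G →* SLn n) (x : Fin n → ℝ) (g : G) : Prop :=
  (ρ g).1 = diagonal fun a => Real.exp (x a)

theorem exists_ex {x : Fin n → ℝ} (h : Lie ρ (diagonal x)) : ∃ g, Ex ρ x g := by
  obtain ⟨g, hg⟩ := exp_mem h
  exact ⟨g, by rw [Ex, hg, Matrix.exp_diagonal, Pi.exp_def, ← Real.exp_eq_exp_ℝ]⟩

theorem Ex.mul {x y : Fin n → ℝ} {g g' : G} (h : Ex ρ x g) (h' : Ex ρ y g') :
    Ex ρ (x + y) (g * g') := by
  rw [Ex, map_mul, SpecialLinearGroup.coe_mul, h, h', diagonal_mul_diagonal]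
  simp only [Pi.add_apply, Real.exp_add]

theorem Ex.pow {x : Fin n → ℝ} {g : G} (h : Ex ρ x g) (N : ℕ) : Ex ρ ((N : ℝ) • x) (g ^ N) := by
  induction N with
  | zero => simp [Ex]
  | succ N ih => rw [pow_succ, Nat.cast_succ, add_smul, one_smul]; exact ih.mul h

theorem Ex.inv {x : Fin n → ℝ} {g : G} (h : Ex ρ x g) : Ex ρ (-x) g⁻¹ := by
  rw [Ex, coe_inv, h]
  refine Matrix.inv_eq_right_inv ?_
  simp [diagonal_mul_diagonal, ← Real.exp_add]

theorem Ex.eq (he : IsClosedEmbedding ρ) {x : Fin n → ℝ} {g g' : G} (h : Ex ρ x g) (h' : Ex ρ x g') :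
    g = g' := ρ_inj he (h.trans h'.symm)

theorem Ex.big (he : IsClosedEmbedding ρ) {x : Fin n → ℝ} {g : G} (h : Ex ρ x g) (h0 : x ≠ 0)
    {K : Set G} (hK : IsCompact K) : ∀ᶠ N : ℕ in atTop, ∀ y ∈ K, tr2 ρ y ≠ tr2 ρ (g ^ N) := by
  obtain ⟨B, hB⟩ := hK.bddAbove_image (tr2_cont he).continuousOn
  obtain ⟨a, ha⟩ := Function.ne_iff.1 h0
  have h1 : 0 < |x a| := abs_pos.2 ha
  filter_upwards [(tendsto_natCast_atTop_atTop.atTop_mul_const h1).eventually_gt_atTop B]
    with N hN y hy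
  refine ((hB ⟨y, hy, rfl⟩).trans_lt (hN.trans_le ?_)).ne
  rw [tr2, h.pow N, (h.pow N).inv, trace_diagonal, trace_diagonal, ← Finset.sum_add_distrib]
  refine le_trans ?_ (Finset.single_le_sum (f := fun a => Real.exp (((N : ℝ) • x) a) +
    Real.exp ((-((N : ℝ) • x)) a)) (fun _ _ => by positivity) (Finset.mem_univ a))
  have e1 := Real.add_one_le_exp (N * x a)
  have e2 := Real.add_one_le_exp (-(N * x a))
  have e3 := Real.exp_pos (N * x a)
  have e4 := Real.exp_pos (-(N * x a))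
  rw [← abs_of_nonneg (Nat.cast_nonneg (α := ℝ) N), ← abs_mul, Nat.abs_cast, abs_le]
  simp only [Pi.neg_apply, Pi.smul_apply, smul_eq_mul]
  constructor <;> linarith

variable {k : Type} [NontriviallyNormedField k] {F : FlD k G 1} [IsTopologicalGroup G] [T2Space G]
  [ProperSpace k]

/-- the centraliser of an unbounded sequence fixes a point of the boundary -/
theorem fix (h : Fl F) {b : ℕ → G} (hb : ∀ K, IsCompact K → ∀ᶠ N in atTop, b N ∉ K) : ∃ c : G,
    ∀ g, (∀ N, b N * g = g * b N) → ∃ d : k, F.V 0 (c⁻¹ * g * c) (F.v 0) = d • F.v 0 := by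
  obtain ⟨C, hC, hk⟩ := h.kak
  choose x hx t ht y hy e using fun N => hk (b N)
  obtain ⟨c, -, h1⟩ := isCompact_iff_ultrafilter_le_nhds'.1 hC ((hyperfilter ℕ).map x)
    (mem_map.2 (univ_mem' hx))
  obtain ⟨c', -, h2⟩ := isCompact_iff_ultrafilter_le_nhds'.1 hC ((hyperfilter ℕ).map y)
    (mem_map.2 (univ_mem' hy))
  have h1 : Tendsto x (hyperfilter ℕ) (𝓝 c) := h1
  have h2 : Tendsto y (hyperfilter ℕ) (𝓝 c') := h2
  have h3 : Tendsto (fun N => t N 0) atTop atTop := tendsto_atTop.2 fun T => by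
    filter_upwards [hb _ ((hC.mul
      ((Set.finite_Icc (0 : ℤ) T).image fun s => F.a fun _ => s).isCompact).mul hC)]
      with N hN
    by_contra h4
    exact hN ⟨_, ⟨_, hx N, _, ⟨t N 0, ⟨ht N 0, (not_le.1 h4).le⟩,
      congrArg F.a (funext fun i => by rw [Subsingleton.elim i 0])⟩, rfl⟩, _, hy N, (e N).symm⟩
  obtain ⟨D, hD⟩ := h.con
  have h4 : Tendsto (fun N => (F.Δ 0 (F.a (t N)))⁻¹ • F.V 0 (F.a (t N))) atTop (𝓝 (F.pr 0)) := by
    refine tendsto_iff_norm_sub_tendsto_zero.2 (squeeze_zero (fun _ => norm_nonneg _)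
      (g := fun N => D * Real.exp (-(F.β * t N 0))) (fun N => ?_) ?_)
    · have a1 := h.Δ_ne (h.a_mem (t N)) 0
      have a2 := hD _ (h.a_dom (ht N)) 0
      rw [h.ℓ_a] at a2
      rw [← inv_smul_smul₀ a1 (F.pr 0), ← smul_sub, norm_smul, norm_inv,
        inv_mul_le_iff₀ (norm_pos_iff.2 a1)]
      linarith
    · simpa using (Real.tendsto_exp_neg_atTop_nhds_zero.comp
        ((tendsto_intCast_atTop_atTop.comp h3).const_mul_atTop h.β_pos)).const_mul D
  refine ⟨c, fun g hg => ⟨F.φ 0 (F.V 0 (c' * g * c'⁻¹) (F.v 0)), ?_⟩⟩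
  have h5 : Tendsto (fun N => F.V 0 ((x N)⁻¹ * g * x N) (F.v 0)) (hyperfilter ℕ)
      (𝓝 (F.V 0 (c⁻¹ * g * c) (F.v 0))) :=
    ((h.contVv 0).tendsto _).comp ((h1.inv.mul_const g).mul h1)
  have h6 := ((isBoundedBilinearMap_apply (𝕜 := k) (E := F.E 0) (F := F.E 0)).continuous.tendsto
    _).comp ((h4.mono_left Nat.hyperfilter_le_atTop).prodMk_nhds
      (((h.contVv 0).tendsto _).comp ((h2.mul_const g).mul h2.inv)))
  refine tendsto_nhds_unique h5 (h6.congr fun N => ?_)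
  have a1 := h.Δ_ne (h.a_mem (t N)) 0
  have a2 : F.a (t N) * (y N * g * (y N)⁻¹) = (x N)⁻¹ * g * x N * F.a (t N) := by
    have := hg N
    rw [e N] at this
    calc _ = (x N)⁻¹ * (x N * F.a (t N) * y N * g) * (y N)⁻¹ := by group
      _ = _ := by rw [this]; group
  simp only [Function.comp, _root_.smul_apply]
  rw [← FlD.V_mul, a2, FlD.V_mul, h.zv _ (h.a_mem _), map_smul, inv_smul_smul₀ a1]

/-- class functions only see the Levi part -/
theorem levi (h : Fl F) {f : G → ℝ} (hf : Continuous f) (hc : ∀ c g, f (c⁻¹ * g * c) = f g) {z : G}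
    {d : k} (hz : F.V 0 z (F.v 0) = d • F.v 0) (h1 : ‖d‖ = 1) :
    ∃ m, (m ∈ F.Z ∧ ∀ i, |F.ℓ m i| ≤ 0) ∧ f m = f z := by
  have e0 : F.Δ 0 z = d := by rw [FlD.Δ, hz, map_smul, h.φv, smul_eq_mul, mul_one]
  have d0 : d ≠ 0 := norm_ne_zero_iff.1 (by rw [h1]; exact one_ne_zero)
  have hΩ : z ∈ F.Ω := fun j => by rw [Subsingleton.elim j 0, e0]; exact d0
  have e1 : F.lo z = 1 := h.um_inj _ (h.lo_mem z hΩ) fun j => by
    have := h.Vv_cell hΩ 0
    rw [hz, e0] at this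
    rw [Subsingleton.elim j 0]
    exact (smul_right_injective _ d0 this).symm
  have e2 := F.lo_md_up z
  rw [e1, one_mul] at e2
  refine ⟨F.md z, ⟨h.md_mem hΩ, fun i => ?_⟩, ?_⟩
  · have : (fun j => Real.log ‖F.Δ j z‖) = 0 := funext fun j => by
      rw [Subsingleton.elim j 0, e0, h1, Real.log_one]; rfl
    rw [h.ℓ_md hΩ, FlD.ℓ, this, FlD.co_zero]; simp
  · refine eq_of_forall_dist_le fun ε hε => ?_
    obtain ⟨T, -, hT⟩ := h.up_contr (isCompact_singleton (x := F.up z))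
      (N := {u | dist (f (F.md z)) (f (F.md z * u)) ≤ ε}) (by
        have : Tendsto (fun u => dist (f (F.md z)) (f (F.md z * u))) (𝓝 1) (𝓝 0) := by
          simpa using (show Continuous fun u => dist (f (F.md z)) (f (F.md z * u)) by
            fun_prop).tendsto 1
        exact this.eventually (ge_mem_nhds hε))
    obtain ⟨N, hN⟩ := exists_nat_ge (T / F.β)
    have h2 := hT _ (h.a_mem fun _ => (N : ℤ)) (fun i => by
      rw [h.ℓ_a_const]; rwa [div_le_iff₀' h.β_pos] at hN) _ rfl (h.up_mem z hΩ)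
    have h3 : F.md z * ((F.a fun _ => (N : ℤ))⁻¹ * F.up z * F.a fun _ => (N : ℤ)) =
        (F.a fun _ => (N : ℤ))⁻¹ * z * F.a fun _ => (N : ℤ) := by
      conv_rhs => rw [← e2]
      have := h.a_comm (fun _ => (N : ℤ)) (h.md_mem hΩ)
      calc _ = (F.a fun _ => (N : ℤ))⁻¹ * ((F.a fun _ => (N : ℤ)) * F.md z) *
          ((F.a fun _ => (N : ℤ))⁻¹ * F.up z * F.a fun _ => (N : ℤ)) := by group
        _ = _ := by rw [this]; group
    rw [Set.mem_setOf_eq, h3, hc] at h2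
    exact h2

/-- **a flag package of rank one forces real rank one** -/
theorem rank_one (h : Fl F) (he : IsClosedEmbedding ρ) {hh : Fin n → ℝ} {r : ℕ} {p q : Fin r → Fin n}
    {w : Fin r → Fin n → ℝ} {E : Fin r → Mat n} (hS : Sr ρ hh p q w E) : ¬ 2 ≤ r := fun hr => by
  let i : Fin r := ⟨0, by omega⟩
  let j : Fin r := ⟨1, by omega⟩
  have hij : i ≠ j := by simp [i, j]
  let x : ℝ → Fin n → ℝ := fun t => t • w i + (1 - t * t) • w j
  have x0 : ∀ t, x t ≠ 0 := fun t h0 => by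
    have a1 := hS.dual i i
    have a2 := hS.dual i j
    have a3 := hS.dual j i
    have a4 := hS.dual j j
    rw [if_pos rfl] at a1 a4
    rw [if_neg hij] at a2
    rw [if_neg hij.symm] at a3
    have b1 := congrFun h0 (p i)
    have b2 := congrFun h0 (q i)
    have b3 := congrFun h0 (p j)
    have b4 := congrFun h0 (q j)
    simp only [x, Pi.add_apply, Pi.smul_apply, smul_eq_mul, Pi.zero_apply] at b1 b2 b3 b4
    have c1 : t = 0 := by linear_combination b1 - b2 - t * a1 - (1 - t * t) * a2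
    have c2 : 1 - t * t = 0 := by linear_combination b3 - b4 - t * a3 - (1 - t * t) * a4
    rw [c1] at c2
    norm_num at c2
  have xl : ∀ t, ∃ g, Ex ρ (x t) g := fun t => exists_ex (by
    have := lie_add he (lie_smul t (hS.wl i)) (lie_smul (1 - t * t) (hS.wl j))
    rwa [← diagonal_smul, ← diagonal_smul, diagonal_add] at this)
  choose g hg using xl
  have gc : Continuous g := (emb_mat he).isInducing.continuous_iff.2 (by
    have : ((fun g : G => (ρ g).1) ∘ g) = fun t => diagonal fun a => Real.exp (x t a) := funext hg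
    rw [this]
    refine Continuous.matrix_diagonal (continuous_pi fun a => ?_)
    simp only [x, Pi.add_apply, Pi.smul_apply, smul_eq_mul]
    fun_prop)
  obtain ⟨c, hc⟩ := fix h (b := fun N => g 0 ^ N) fun K hK => by
    filter_upwards [(hg 0).big he (x0 0) hK] with N hN hm using hN _ hm rfl
  have cm : ∀ {y : Fin n → ℝ} {a : G}, Ex ρ y a →
      F.V 0 (c⁻¹ * a * c) (F.v 0) = F.Δ 0 (c⁻¹ * a * c) • F.v 0 := fun {y a} ha => by
    obtain ⟨d, hd⟩ := hc a fun N =>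
      (((hg 0).pow N).mul ha).eq he (by rw [add_comm]; exact ha.mul ((hg 0).pow N))
    rw [FlD.Δ, hd, map_smul, h.φv, smul_eq_mul, mul_one]
  have ml : ∀ {y : Fin n → ℝ} {a : G}, Ex ρ y a → ∀ b,
      F.Δ 0 (c⁻¹ * (b * a) * c) = F.Δ 0 (c⁻¹ * b * c) * F.Δ 0 (c⁻¹ * a * c) := fun {y a} ha b => by
    rw [show c⁻¹ * (b * a) * c = c⁻¹ * b * c * (c⁻¹ * a * c) by group, FlD.Δ, FlD.V_mul, cm ha,
      map_smul, map_smul, smul_eq_mul, mul_comm]
    rfl
  have d1 : F.Δ 0 (c⁻¹ * 1 * c) = 1 := by rw [mul_one, inv_mul_cancel, FlD.Δ, map_one]; exact h.φv 0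
  have fc : Continuous fun t => ‖F.Δ 0 (c⁻¹ * g t * c)‖ :=
    ((F.φ 0).continuous.comp ((h.contVv 0).comp (by fun_prop))).norm
  have f1 : ‖F.Δ 0 (c⁻¹ * g (-1) * c)‖ * ‖F.Δ 0 (c⁻¹ * g 1 * c)‖ = 1 := by
    have : g (-1) = (g 1)⁻¹ := (hg (-1)).eq he (by
      have := (hg 1).inv
      rwa [show -x 1 = x (-1) by simp [x]] at this)
    rw [← norm_mul, ← ml (hg 1), this, inv_mul_cancel (g 1), d1, norm_one]
  obtain ⟨t, ht⟩ : ∃ t, ‖F.Δ 0 (c⁻¹ * g t * c)‖ = 1 := by
    have n1 := norm_nonneg (F.Δ 0 (c⁻¹ * g (-1) * c))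
    have n2 := norm_nonneg (F.Δ 0 (c⁻¹ * g 1 * c))
    rcases le_total ‖F.Δ 0 (c⁻¹ * g 1 * c)‖ 1 with h1 | h1
    · exact intermediate_value_univ 1 (-1) fc ⟨h1, by nlinarith⟩
    · exact intermediate_value_univ (-1) 1 fc ⟨by nlinarith, h1⟩
  have pw : ∀ N : ℕ, ‖F.Δ 0 (c⁻¹ * g t ^ N * c)‖ = 1 := fun N => by
    induction N with
    | zero => rw [pow_zero, d1, norm_one]
    | succ N ih => rw [pow_succ, ml (hg t), norm_mul, ih, ht, one_mul]
  obtain ⟨N, hN⟩ := ((hg t).big he (x0 t) (h.zprop 0)).exists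
  obtain ⟨m, hm, e⟩ := levi h (tr2_cont he) tr2_conj (cm ((hg t).pow N)) (pw N)
  exact hN m hm (e.trans (tr2_conj _ _))

/-- a real group with a flag package of rank one is a group `R1` -/
theorem r1_of_fl (h : Fl F) (hρ : RS ρ) : ∃ (ρ' : G →* SLn n) (w : Fin n → ℝ), P092RG.R1 ρ' w :=
  (P092RG.r1_or ρ hρ).resolve_right fun ⟨_, _, _, _, _, _, _, hr, h1, _, hS⟩ =>
    rank_one h h1.emb hS hr

end Vale.Agent.P092RB
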