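import Vale.Agent.P092RB.Adj
import Vale.Agent.P092RB.Rk
import Vale.Agent.P092GP.DefsT
import Vale.Agent.P092GP.Bru
import Mathlib.RingTheory.Norm.Transitivity

/-!
P092, real bridge (helper96): a linear package over an archimedean field is a real linear group.
-/

set_option linter.all false

open Matrix Filter Topology

namespace Vale.Agent.P092RB

open P092 P092.H793.Re P092GP

variable {k : Type} [NontriviallyNormedField k] {G : Type} [Group G] [TopologicalSpace G]

theorem arch (h : UN.LocK k) (hu : ¬ IsUltrametricDist k) : PreconnectedSpace k ∧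
    ∃ θ : k →+* Matrix (Fin 2) (Fin 2) ℝ, IsClosedEmbedding θ := by
  have h0 : IsClosedEmbedding (Algebra.leftMulMatrix Complex.basisOneI).toLinearMap :=
    LinearMap.isClosedEmbedding_of_injective
      (LinearMap.ker_eq_bot.2 (Algebra.leftMulMatrix_injective _))
  rcases h with ⟨φ, h⟩ | ⟨φ, h⟩ | h
  · let e := (IsometryEquiv.mk φ.toEquiv (AddMonoidHomClass.isometry_of_norm φ h)).toHomeomorph
    exact ⟨(e.symm.surjective.connectedSpace e.symm.continuous).1,
      ((Algebra.leftMulMatrix Complex.basisOneI).toRingHom.comp Complex.ofRealHom).comp φ,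
      (h0.comp Complex.isometry_ofReal.isClosedEmbedding).comp e.isClosedEmbedding⟩
  · let e := (IsometryEquiv.mk φ.toEquiv (AddMonoidHomClass.isometry_of_norm φ h)).toHomeomorph
    exact ⟨(e.symm.surjective.connectedSpace e.symm.continuous).1,
      (Algebra.leftMulMatrix Complex.basisOneI).toRingHom.comp φ, h0.comp e.isClosedEmbedding⟩
  · exact absurd h hu

theorem realify {n d : ℕ} (σ : G →* Matrix (Fin n) (Fin n) k) (hσ : IsClosedEmbedding σ)
    (h1 : ∀ g, (σ g).det = 1) (θ : k →+* Matrix (Fin d) (Fin d) ℝ) (hθ : IsClosedEmbedding θ) :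
    ∃ ρ : G →* SLn (n * d), IsClosedEmbedding ρ := by
  let e := (compAlgEquiv (Fin n) (Fin d) ℝ ℝ).trans (reindexAlgEquiv ℝ ℝ finProdFinEquiv)
  have he : IsClosedEmbedding e.toLinearMap :=
    LinearMap.isClosedEmbedding_of_injective (LinearMap.ker_eq_bot.2 e.injective)
  let f := (e.toRingEquiv.toRingHom.comp θ.mapMatrix).toMonoidHom.comp σ
  have hf : ∀ g, (f g).det = 1 := fun g => by
    have := Matrix.det_det (σ g) θ
    rw [h1, map_one, det_one] at this
    exact (det_reindex_self _ _).trans this.symm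
  refine ⟨⟨⟨fun g => ⟨f g, hf g⟩, Subtype.ext (map_one f)⟩, fun a b => Subtype.ext (map_mul f a b)⟩,
    IsClosedEmbedding.of_comp closedEmb_val.isEmbedding ?_⟩
  exact he.comp (hθ.matrix_map.comp hσ)

variable {L : LD k G}

theorem x_cont (H : L.Ok) (he : IsEmbedding L.ρ) : Continuous L.x :=
  he.isInducing.continuous_iff.2 (continuous_matrix fun a b => by
    simp only [Function.comp, H.x_apply]
    exact MvPolynomial.continuous_eval _)

/-- over a connected field, `Gp` is connected -/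
theorem conn [PreconnectedSpace k] [IsTopologicalGroup G] (H : L.Ok) (he : IsEmbedding L.ρ)
    (ht : L.Gp = ⊤) : PreconnectedSpace G := by
  have h1 : ∀ n : G, ∀ u ∈ L.Up, n * u * n⁻¹ ∈ Subgroup.connectedComponentOfOne G := fun n u hu => by
    obtain ⟨s, rfl⟩ := H.x_onto u hu
    have := x_cont H he
    exact (isPreconnected_range (f := fun s => n * L.x s * n⁻¹) (by fun_prop)).subset_connectedComponent
      ⟨0, by simp [H.x_zero]⟩ ⟨s, rfl⟩
  have h2 : L.Gp ≤ Subgroup.connectedComponentOfOne G := sup_le (fun u hu => by simpa using h1 1 u hu)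
    fun u hu => by
      obtain ⟨w, a, n, -, b⟩ := H.exists_n0
      simpa [mul_assoc] using h1 n⁻¹ _ (H.lg_Um b a hu)
  refine ⟨?_⟩
  have : connectedComponent (1 : G) = Set.univ :=
    Set.eq_univ_of_forall fun g => h2 (ht ▸ Subgroup.mem_top g)
  exact this ▸ isPreconnected_connectedComponent

theorem not_compact (H : L.Ok) (he : Continuous L.ρ) : ¬ CompactSpace G := fun _ => by
  obtain ⟨j, -⟩ := H.dg_simple ⟨0, H.root.pos⟩
  have h1 : Continuous fun g => ‖L.co j (L.ρ g)‖ := by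
    simp only [LD.co]
    fun_prop
  obtain ⟨B, hB⟩ := (isCompact_range h1).bddAbove
  obtain ⟨t, ht⟩ := NormedField.exists_lt_norm k B
  have := hB ⟨L.x fun _ => t, rfl⟩
  simp only [H.co_x] at this
  exact absurd ht (not_lt.2 this)

/-- **the real bridge** -/
theorem hyp_of (H : L.Ok) (hk : UN.LocK k) (hu : ¬ IsUltrametricDist k) (hc : IsClosedEmbedding L.ρ)
    (ht : L.Gp = ⊤) (hs : ∀ N : Subgroup G, N.Normal → N ≤ Subgroup.center G ∨ N = ⊤)
    (hf : Finite (Subgroup.center G)) : ∃ (n : ℕ) (ρ : G →* SLn n), Hyp ρ := by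
  obtain ⟨h1, θ, hθ⟩ := arch hk hu
  obtain ⟨ρ, hρ⟩ := realify L.ρ hc H.det θ hθ
  haveI := topGroup hρ
  exact ⟨_, ρ, hρ, conn H hc.isEmbedding ht, hs, hf, not_compact H hc.continuous⟩

theorem rs_of (H : L.Ok) (hk : UN.LocK k) (hu : ¬ IsUltrametricDist k) (hc : IsClosedEmbedding L.ρ)
    (ht : L.Gp = ⊤) (hs : ∀ N : Subgroup G, N.Normal → N ≤ Subgroup.center G ∨ N = ⊤)
    (hz : Subgroup.center G = ⊥) : H259.Ad.IsAdj G ∧ ∃ (n : ℕ) (ρ : G →* SLn n), RS ρ := by
  obtain ⟨n, ρ, h⟩ := hyp_of H hk hu hc ht hs (by rw [hz]; infer_instance)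
  exact ⟨isAdj h hz, H259.Ad.adjB (isAdj h hz)⟩

theorem r1_of (H : L.Ok) (hk : UN.LocK k) (hu : ¬ IsUltrametricDist k) (hc : IsClosedEmbedding L.ρ)
    (ht : L.Gp = ⊤) (hs : ∀ N : Subgroup G, N.Normal → N ≤ Subgroup.center G ∨ N = ⊤)
    (hz : Subgroup.center G = ⊥) {k' : Type} [NontriviallyNormedField k'] [ProperSpace k']
    {F : P092GK.FlD k' G 1} (hF : P092GK.Fl F) :
    ∃ (n : ℕ) (ρ : G →* SLn n) (w : Fin n → ℝ), P092RG.R1 ρ w := by
  obtain ⟨-, n, ρ, h⟩ := rs_of H hk hu hc ht hs hz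
  haveI := topGroup h.emb
  haveI := h.emb.isEmbedding.t2Space
  exact ⟨n, r1_of_fl hF h⟩

end Vale.Agent.P092RB
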