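import Vale.Agent.P092.H259.Ad.Final
import Mathlib.Topology.Algebra.Group.OpenMapping
import Mathlib.Topology.Baire.LocallyCompactRegular

/-!
P092, real bridge (helper96): a closed connected noncompact subgroup of `SL_n(ℝ)` which is simple
modulo a finite centre is, modulo its centre, the adjoint group of a simple Lie algebra.
-/

set_option linter.all false

open Matrix Filter Topology

namespace Vale.Agent.P092RB

open P092 P092.H793.Re P092.H259.Ad

variable {n m : ℕ} {G : Type} [Group G] [TopologicalSpace G] {ρ : G →* SLn n} {c : Ten m}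
  {ι : (Fin m → ℝ) →ₗ[ℝ] Mat n} {ψ : Mat n →ₗ[ℝ] (Fin m → ℝ)}

/-- coordinates on the Lie algebra -/
structure Co (ρ : G →* SLn n) (c : Ten m) (ι : (Fin m → ℝ) →ₗ[ℝ] Mat n)
    (ψ : Mat n →ₗ[ℝ] (Fin m → ℝ)) : Prop where
  left : ∀ v, ψ (ι v) = v
  lie : ∀ v, Lie ρ (ι v)
  onto : ∀ X, Lie ρ X → ι (ψ X) = X
  br : ∀ x y, ι (br c x y) = ι x * ι y - ι y * ι x

/-- the matrix of the adjoint action -/
noncomputable def ad (ρ : G →* SLn n) (ι : (Fin m → ℝ) →ₗ[ℝ] Mat n) (ψ : Mat n →ₗ[ℝ] (Fin m → ℝ))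
    (g : G) : Mat m :=
  LinearMap.toMatrix' (ψ ∘ₗ (LinearMap.mulLeftRight ℝ ((ρ g).1, (ρ g⁻¹).1)) ∘ₗ ι)

theorem ad_mulVec (g : G) (v : Fin m → ℝ) :
    ad ρ ι ψ g *ᵥ v = ψ ((ρ g).1 * ι v * (ρ g⁻¹).1) := by
  rw [ad, ← Matrix.toLin'_apply, Matrix.toLin'_toMatrix']; rfl

theorem conj_const {A : Type} [NormedRing A] [NormedAlgebra ℝ A] [CompleteSpace A] {X : A}
    {f : ℝ → A} (hf : ∀ t, HasDerivAt f (X * f t - f t * X) t) :
    NormedSpace.exp (-X) * f 1 * NormedSpace.exp X = f 0 := by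
  have hd : ∀ t : ℝ, HasDerivAt (fun t : ℝ => NormedSpace.exp (t • (-X)) * f t *
      NormedSpace.exp (t • X)) 0 t := fun t => by
    refine (((hasDerivAt_exp_smul_const (𝕂 := ℝ) (-X) t).fun_mul (hf t)).fun_mul
      (hasDerivAt_exp_smul_const' (𝕂 := ℝ) X t)).congr_deriv ?_
    generalize NormedSpace.exp (t • (-X)) = A
    generalize NormedSpace.exp (t • X) = B
    noncomm_ring
  simpa using is_const_of_deriv_eq_zero (fun t => (hd t).differentiableAt)
    (fun t => (hd t).deriv) 1 0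

section norm

attribute [local instance] Matrix.linftyOpNormedRing Matrix.linftyOpNormedAlgebra

theorem exp_sub_mem {M : Mat m} {T : Submodule ℝ (Fin m → ℝ)} {v : Fin m → ℝ}
    (h : ∀ k, (M ^ (k + 1)) *ᵥ v ∈ T) : NormedSpace.exp M *ᵥ v - v ∈ T := by
  have h1 := (hasSum_nat_add_iff' 1).2 (NormedSpace.exp_series_hasSum_exp' (𝕂 := ℝ) M)
  have h2 := (LinearMap.toContinuousLinearMap ((Matrix.mulVecBilin ℝ ℝ).flip v)).hasSum h1
  simp only [LinearMap.coe_toContinuousLinearMap', LinearMap.flip_apply, mulVecBilin_apply,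
    Finset.range_one, Finset.sum_singleton, Nat.factorial_zero, Nat.cast_one, inv_one, pow_zero,
    one_smul, sub_mulVec, one_mulVec, smul_mulVec] at h2
  exact T.closed_of_finiteDimensional.mem_of_tendsto h2 (Eventually.of_forall fun s =>
    T.sum_mem fun k _ => T.smul_mem _ (h k))

theorem eq_zero_of_exp {X : Mat n} (h : ∀ t : ℝ, NormedSpace.exp (t • X) = 1) : X = 0 := by
  have h1 := hasDerivAt_expm X 0
  rw [zero_smul, NormedSpace.exp_zero, mul_one, funext h] at h1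
  exact h1.unique (hasDerivAt_const _ _)

namespace Co

variable (h : Co ρ c ι ψ)
include h

theorem inj {v w : Fin m → ℝ} (e : ι v = ι w) : v = w := by rw [← h.left v, e, h.left]

theorem ad_eq (g : G) (v : Fin m → ℝ) : ι (ad ρ ι ψ g *ᵥ v) = (ρ g).1 * ι v * (ρ g⁻¹).1 := by
  rw [ad_mulVec, h.onto _ (lie_conj g (h.lie v))]

theorem ad_one : ad ρ ι ψ 1 = 1 := ext_mulVec fun v => h.inj (by
  rw [h.ad_eq, inv_one, H624.Ad.coe_one', one_mul, mul_one, one_mulVec])

theorem ad_mul (g g' : G) : ad ρ ι ψ (g * g') = ad ρ ι ψ g * ad ρ ι ψ g' :=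
  ext_mulVec fun v => h.inj (by
    rw [← mulVec_mulVec, h.ad_eq, h.ad_eq, h.ad_eq, _root_.mul_inv_rev, H624.Ad.coe_mul',
      H624.Ad.coe_mul']
    simp only [mul_assoc])

theorem ad_exp {g : G} {x : Fin m → ℝ} (e : (ρ g).1 = NormedSpace.exp (ι x)) :
    ad ρ ι ψ g = NormedSpace.exp (adm c x) := by
  refine ext_mulVec fun v => h.inj ?_
  haveI : CompleteSpace (Mat n) := FiniteDimensional.complete ℝ _
  have h2 := conj_const (X := ι x) (f := fun t => ι (NormedSpace.exp (t • adm c x) *ᵥ v)) fun t => by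
    have h1 := (LinearMap.toContinuousLinearMap ι).hasFDerivAt.comp_hasDerivAt t
      (hasDerivAt_expv (adm c x) v t)
    rw [adm_mulVec] at h1
    rw [← h.br]
    exact h1
  simp only [one_smul, zero_smul, NormedSpace.exp_zero, one_mulVec] at h2
  have h3 := (Matrix.isUnit_iff_isUnit_det _).1 (Matrix.isUnit_exp (ι x))
  have h4 : (NormedSpace.exp (ι x))⁻¹ * ι (NormedSpace.exp (adm c x) *ᵥ v) * NormedSpace.exp (ι x) =
    ι v := by rw [← Matrix.exp_neg]; exact h2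
  rw [h.ad_eq, coe_inv, e, ← h4, ← mul_assoc, ← mul_assoc, Matrix.mul_nonsing_inv _ h3, one_mul,
    mul_assoc, Matrix.mul_nonsing_inv _ h3, mul_one]

theorem cont (he : IsClosedEmbedding ρ) : Continuous (ad ρ ι ψ) := by
  haveI := topGroup he
  refine continuous_matrix fun i j => ?_
  have : (fun g => ad ρ ι ψ g i j) =
      fun g => ψ ((ρ g).1 * ι (Pi.single j 1) * (ρ g⁻¹).1) i := funext fun g => by
    rw [← ad_mulVec, mulVec_single_one]; rfl
  rw [this]
  have h1 := (emb_mat he).continuous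
  exact (continuous_apply i).comp (ψ.continuous_of_finiteDimensional.comp
    ((h1.matrix_mul continuous_const).matrix_mul (h1.comp continuous_inv)))

theorem der_mem {g : ℝ → G} {x y : Fin m → ℝ} (e : ∀ t, (ρ (g t)).1 = NormedSpace.exp (t • ι x))
    {T : Submodule ℝ (Fin m → ℝ)} (hT : ∀ t, ad ρ ι ψ (g t) *ᵥ y - y ∈ T) : H259.Ad.br c x y ∈ T := by
  have h1 := (hasDerivAt_expv (adm c x) y 0).sub_const y
  rw [zero_smul, NormedSpace.exp_zero, one_mulVec, adm_mulVec] at h1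
  refine T.closed_of_finiteDimensional.mem_of_tendsto (hasDerivAt_iff_tendsto_slope.1 h1)
    (Eventually.of_forall fun t => ?_)
  rw [slope_def_module, zero_smul, NormedSpace.exp_zero, one_mulVec, sub_self, sub_zero, sub_zero]
  refine T.smul_mem _ ?_
  rw [← adm_smul, ← h.ad_exp (g := g t) (by rw [e, map_smul])]
  exact hT t

end Co

end norm

theorem gen_top (he : IsClosedEmbedding ρ) (hc : PreconnectedSpace G) (N : Subgroup G)
    (h : ∀ g X, Lie ρ X → (ρ g).1 = NormedSpace.exp X → g ∈ N) : N = ⊤ := by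
  obtain ⟨V, hV, hl⟩ := H736.Re.log_nhds he (lieS he) (fun X => Iff.rfl) (U := Set.univ) univ_mem
  exact H624.Ad.eq_top_of_near he hc N hV fun g hg =>
    let ⟨X, _, h1, h2⟩ := hl g hg; h g X h1 h2

theorem zero_of_center (hz : Finite (Subgroup.center G)) {X : Mat n} {g : ℝ → G}
    (e : ∀ t, (ρ (g t)).1 = NormedSpace.exp (t • X)) (h : ∀ t, g t ∈ Subgroup.center G) : X = 0 := by
  refine eq_zero_of_exp fun t => ?_
  have h0 : (Nat.card (Subgroup.center G) : ℝ) ≠ 0 := Nat.cast_ne_zero.2 Nat.card_pos.ne'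
  have h1 : g (t / Nat.card (Subgroup.center G)) ^ Nat.card (Subgroup.center G) = 1 :=
    congrArg Subtype.val (pow_card_eq_one' (x := (⟨_, h _⟩ : Subgroup.center G)))
  have h2 := congrArg (fun z => (ρ z).1) h1
  simp only [map_pow, Matrix.SpecialLinearGroup.coe_pow, e, H624.Ad.coe_one'] at h2
  rwa [← Matrix.exp_nsmul, ← Nat.cast_smul_eq_nsmul ℝ, smul_smul, mul_div_cancel₀ _ h0] at h2

/-- the standing hypotheses -/
structure Hyp (ρ : G →* SLn n) : Prop where
  emb : IsClosedEmbedding ρ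
  conn : PreconnectedSpace G
  simple : ∀ N : Subgroup G, N.Normal → N ≤ Subgroup.center G ∨ N = ⊤
  fin : Finite (Subgroup.center G)
  nc : ¬ CompactSpace G

/-- ideals -/
def Idl (c : Ten m) (S : Submodule ℝ (Fin m → ℝ)) : Prop := ∀ x, ∀ y ∈ S, br c x y ∈ S

theorem pow_mem {S T : Submodule ℝ (Fin m → ℝ)} (hT : Idl c T) {x y : Fin m → ℝ}
    (h : br c x y ∈ T) (k : ℕ) : (adm c x ^ (k + 1)) *ᵥ y ∈ T := by
  induction k with
  | zero => rwa [zero_add, pow_one, adm_mulVec]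
  | succ k ih => rw [pow_succ', ← mulVec_mulVec, adm_mulVec]; exact hT _ _ ih

theorem Co.ad_mem (h : Co ρ c ι ψ) (H : Hyp ρ) {S : Submodule ℝ (Fin m → ℝ)} (hS : Idl c S) (g : G) :
    ∀ y ∈ S, ad ρ ι ψ g *ᵥ y ∈ S := by
  let N : Subgroup G :=
    { carrier := {g | (∀ y ∈ S, ad ρ ι ψ g *ᵥ y ∈ S) ∧ ∀ y ∈ S, ad ρ ι ψ g⁻¹ *ᵥ y ∈ S}
      one_mem' := by simp [h.ad_one]
      mul_mem' := fun {a b} ha hb => ⟨fun y hy => by
        rw [h.ad_mul, ← mulVec_mulVec]; exact ha.1 _ (hb.1 y hy), fun y hy => by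
        rw [_root_.mul_inv_rev, h.ad_mul, ← mulVec_mulVec]; exact hb.2 _ (ha.2 y hy)⟩
      inv_mem' := fun {a} ha => ⟨ha.2, by rw [inv_inv]; exact ha.1⟩ }
  have k : ∀ g X, Lie ρ X → (ρ g).1 = NormedSpace.exp X → ∀ y ∈ S, ad ρ ι ψ g *ᵥ y ∈ S :=
    fun g X hX e y hy => by
      rw [h.ad_exp (x := ψ X) (by rw [h.onto X hX, e])]
      simpa using S.add_mem (exp_sub_mem (pow_mem (S := S) hS (hS _ y hy))) hy
  have : N = ⊤ := gen_top H.emb H.conn N fun g X hX e =>
    ⟨k g X hX e, k _ (-X) (lie_neg hX) (by rw [coe_inv, e, Matrix.exp_neg])⟩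
  exact (show g ∈ N by rw [this]; trivial).1

theorem Co.key (h : Co ρ c ι ψ) (H : Hyp ρ) {S T : Submodule ℝ (Fin m → ℝ)} (hS : Idl c S)
    (hT : Idl c T) {x : Fin m → ℝ} (h0 : x ≠ 0) (hx : ∀ y ∈ S, H259.Ad.br c x y ∈ T)
    (x' : Fin m → ℝ) : ∀ y ∈ S, H259.Ad.br c x' y ∈ T := by
  have i1 : ∀ (a : G) y, ad ρ ι ψ a *ᵥ (ad ρ ι ψ a⁻¹ *ᵥ y) = y := fun a y => by
    rw [mulVec_mulVec, ← h.ad_mul, mul_inv_cancel, h.ad_one, one_mulVec]
  let N : Subgroup G :=
    { carrier := {g | ∀ y ∈ S, ad ρ ι ψ g *ᵥ y - y ∈ T}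
      one_mem' := by simp [h.ad_one]
      mul_mem' := fun {a b} ha hb y hy => by
        rw [h.ad_mul, ← mulVec_mulVec]
        simpa using T.add_mem (ha _ (h.ad_mem H hS b y hy)) (hb y hy)
      inv_mem' := fun {a} ha y hy => by
        simpa [i1] using T.neg_mem (ha _ (h.ad_mem H hS a⁻¹ y hy)) }
  have hN : N.Normal := ⟨fun a ha g y hy => by
    have := h.ad_mem H hT g _ (ha _ (h.ad_mem H hS g⁻¹ y hy))
    rwa [mulVec_sub, i1, mulVec_mulVec, mulVec_mulVec, ← h.ad_mul, ← h.ad_mul] at this⟩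
  rcases H.simple N hN with h1 | h1
  · choose g hg using h.lie x
    refine (h0 (h.inj ((zero_of_center H.fin hg fun t => h1 fun y hy => ?_).trans
      (map_zero ι).symm))).elim
    rw [h.ad_exp (x := t • x) (by rw [hg, map_smul])]
    exact exp_sub_mem (pow_mem (S := S) hT (by rw [br_smul_left]; exact T.smul_mem _ (hx y hy)))
  · choose g hg using h.lie x'
    exact fun y hy => h.der_mem hg fun t => (show g t ∈ N by rw [h1]; trivial) y hy

theorem Co.cen (h : Co ρ c ι ψ) (H : Hyp ρ) {x : Fin m → ℝ} (hx : ∀ y, H259.Ad.br c x y = 0) :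
    x = 0 := by
  choose g hg using h.lie x
  refine h.inj ((zero_of_center H.fin hg fun t => H624.Ad.center_of_lie H.emb H.conn
    fun Y hY => ?_).trans (map_zero ι).symm)
  have := h.br x (ψ Y)
  rw [hx, map_zero, h.onto Y hY, eq_comm, sub_eq_zero] at this
  rw [hg]
  exact (Commute.smul_left (show Commute (ι x) Y from this) t).exp_left

section lie

attribute [local instance 100] LieRing.ofAssociativeRing

/-- the Lie algebra -/
def lieA (he : IsClosedEmbedding ρ) : LieSubalgebra ℝ (Mat n) :=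
  { lieS he with lie_mem' := fun hX hY => lie_bracket he hX hY }

theorem simple_of {L : Type} [LieRing L] [LieAlgebra ℝ L] [FiniteDimensional ℝ L]
    {φ : L ≃ₗ[ℝ] (Fin m → ℝ)} (hφ : Mod φ c) (h : Co ρ c ι ψ) (H : Hyp ρ) :
    LieAlgebra.IsSimple ℝ L := by
  have id : ∀ J : LieIdeal ℝ L, Idl c (J.toSubmodule.comap φ.symm.toLinearMap) := fun J x y hy => by
    show φ.symm _ ∈ J
    rw [hφ.br_eq, φ.symm_apply_apply]
    exact J.lie_mem hy
  have cen : ∀ x : L, (∀ y : L, ⁅x, y⁆ = 0) → x = 0 := fun x hx => φ.injective (by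
    rw [map_zero]
    exact h.cen H fun y => by rw [hφ.br_eq, φ.symm_apply_apply, hx, map_zero])
  have key : ∀ S T : LieIdeal ℝ L, ∀ x : L, x ≠ 0 → (∀ y ∈ S, ⁅x, y⁆ ∈ T) →
      ∀ x' : L, ∀ y ∈ S, ⁅x', y⁆ ∈ T := fun S T x h0 hx x' y hy => by
    have := h.key H (id S) (id T) (x := φ x) (by simpa using h0) (fun y hy => by
      show φ.symm _ ∈ T
      rw [hφ.br_eq, φ.symm_apply_apply, φ.symm_apply_apply]
      exact hx _ hy) (φ x') (φ y) (by simpa using hy)
    rw [← hφ] at this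
    simpa using this
  have ex : ∀ J : LieIdeal ℝ L, J ≠ ⊥ → ∃ x ∈ J, x ≠ 0 := fun J hJ => by
    by_contra! h1
    exact hJ ((LieSubmodule.eq_bot_iff J).2 h1)
  haveI : LieAlgebra.HasTrivialRadical ℝ L :=
    (LieAlgebra.hasTrivialRadical_iff_no_abelian_ideals ℝ L).2 fun J hJ => by
      by_contra h1
      obtain ⟨x, hx, h0⟩ := ex J h1
      refine h0 (cen x fun y => ?_)
      rw [← lie_skew, neg_eq_zero]
      exact key J ⊥ x h0 (fun y hy => congrArg Subtype.val (hJ.trivial ⟨x, hx⟩ ⟨y, hy⟩)) y x hx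
  have k2 : ∀ J : LieIdeal ℝ L, J ≠ ⊥ → ∀ x y : L, ⁅x, y⁆ ∈ J := fun J hJ x y =>
    let ⟨z, hz, h0⟩ := ex J hJ
    key ⊤ J z h0 (fun y _ => lie_mem_left ℝ L J z y hz) x y trivial
  refine ⟨fun J => ?_, fun hL => H.nc ?_⟩
  · by_contra! h1
    have h2 := J.isCompl_killingCompl
    have h3 : J.killingCompl ≠ ⊥ := fun e => h1.2 (by simpa [e] using h2.sup_eq_top)
    obtain ⟨x, -, h0⟩ := ex J h1.1
    refine h0 (cen x fun y => ?_)
    have : ⁅x, y⁆ ∈ J ⊓ J.killingCompl := ⟨k2 _ h1.1 x y, k2 _ h3 x y⟩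
    rwa [h2.inf_eq_bot, LieSubmodule.mem_bot] at this
  · have h1 : (⊥ : Subgroup G) = ⊤ := gen_top H.emb H.conn _ fun g X hX e => by
      have : φ.symm (ψ X) = 0 := cen _ fun y => hL.trivial _ _
      rw [← h.onto X hX, φ.symm.map_eq_zero_iff.1 this, map_zero, NormedSpace.exp_zero,
        ← H624.Ad.coe_one' (ρ := ρ)] at e
      exact ρ_inj H.emb e
    haveI : Subsingleton G := Subgroup.subsingleton_iff.1 (subsingleton_iff_bot_eq_top.1 h1)
    infer_instance

theorem exists_co (he : IsClosedEmbedding ρ) : ∃ (m : ℕ) (b : Module.Basis (Fin m) ℝ (lieA he))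
    (ι : (Fin m → ℝ) →ₗ[ℝ] Mat n) (ψ : Mat n →ₗ[ℝ] (Fin m → ℝ)),
    Co ρ (fun i j l => b.equivFun ⁅b i, b j⁆ l) ι ψ := by
  let b := Module.finBasis ℝ (lieA he)
  let ι := (lieA he).toSubmodule.subtype ∘ₗ b.equivFun.symm.toLinearMap
  obtain ⟨ψ, hψ⟩ := ι.exists_leftInverse_of_injective (LinearMap.ker_eq_bot.2
    (Subtype.val_injective.comp b.equivFun.symm.injective))
  have h1 : ∀ v, ψ (ι v) = v := fun v => LinearMap.congr_fun hψ v
  refine ⟨_, b, ι, ψ, h1, fun v => (b.equivFun.symm v).2, fun X hX => ?_, fun x y => ?_⟩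
  · have : X = ι (b.equivFun ⟨X, hX⟩) := by simp [ι]
    rw [this, h1]
  · rw [(mod_basis b).br_eq]
    simp [ι, Ring.lie_def]

/-- **The adjoint group.** -/
theorem exists_ad (H : Hyp ρ) : ∃ (m : ℕ) (c : Ten m) (Φ : G →* Aut0 c), Continuous Φ ∧
    IsOpenMap Φ ∧ Function.Surjective Φ ∧ Φ.ker = Subgroup.center G ∧ IsAdj (Aut0 c) := by
  obtain ⟨m, b, ι, ψ, h⟩ := exists_co H.emb
  set c : Ten m := fun i j l => b.equivFun ⁅b i, b j⁆ l
  have hφ : Mod b.equivFun c := mod_basis b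
  haveI := simple_of hφ h H
  have hs := hφ.simp
  have hr := isClosedEmbedding_rho c
  let N : Subgroup G :=
    { carrier := {g | ∃ a : Aut0 c, (rho c a).1 = ad ρ ι ψ g}
      one_mem' := ⟨1, by rw [h.ad_one, H624.Ad.coe_one']⟩
      mul_mem' := fun ⟨a, ha⟩ ⟨b, hb⟩ => ⟨a * b, by rw [h.ad_mul, H624.Ad.coe_mul', ha, hb]⟩
      inv_mem' := fun {g} ⟨a, ha⟩ => ⟨a⁻¹, by
        rw [coe_inv, ha]
        exact Matrix.inv_eq_right_inv (by rw [← h.ad_mul, mul_inv_cancel, h.ad_one])⟩ }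
  have hN : N = ⊤ := gen_top H.emb H.conn N fun g X hX e => by
    obtain ⟨a, ha⟩ := exp_mem (lie_of_der hs.nd (der_adm hs.lie (ψ X)))
    exact ⟨a, by rw [ha, h.ad_exp (x := ψ X) (by rw [h.onto X hX, e])]⟩
  choose f hf using fun g => show g ∈ N by rw [hN]; trivial
  let Φ : G →* Aut0 c := MonoidHom.mk' f fun g g' => ρ_inj hr (by
    rw [hf, H624.Ad.coe_mul', hf, hf, h.ad_mul])
  have c1 : Continuous Φ := (emb_mat hr).isInducing.continuous_iff.2
    ((h.cont H.emb).congr fun g => (hf g).symm)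
  have s1 : Function.Surjective Φ := MonoidHom.range_eq_top.1
    (gen_top hr (preconnected_aut0 c) _ fun a D hD e => by
      obtain ⟨x, rfl⟩ := hs.inner D (der_of_lie hD)
      obtain ⟨g, hg⟩ := exp_mem (h.lie x)
      exact ⟨g, ρ_inj hr ((hf g).trans ((h.ad_exp hg).trans e.symm))⟩)
  have k1 : Φ.ker = Subgroup.center G := by
    ext g
    refine ⟨fun hg => H624.Ad.center_of_lie H.emb H.conn fun X hX => ?_, fun hg => ρ_inj hr ?_⟩
    · have h1 := h.ad_eq g (ψ X)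
      rw [← hf, show f g = 1 from hg, H624.Ad.coe_one', one_mulVec, h.onto X hX] at h1
      conv_rhs => rw [h1, mul_assoc, coe_inv_mul, mul_one]
    · refine (hf g).trans (Eq.trans (ext_mulVec fun v => h.inj ?_) H624.Ad.coe_one'.symm)
      rw [h.ad_eq, one_mulVec, ← comm_of_exp (X := ι v) (A := (ρ g).1) fun t => ?_, mul_assoc,
        coe_mul_inv, mul_one]
      obtain ⟨u, hu⟩ := h.lie v t
      rw [← hu, ← H624.Ad.coe_mul', ← H624.Ad.coe_mul', Subgroup.mem_center_iff.1 hg u]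
  haveI := topGroup H.emb
  haveI := locComp H.emb
  haveI := secCount H.emb
  haveI := t2 H.emb
  haveI := locComp hr
  haveI := t2 hr
  have o1 := Φ.isOpenMap_of_sigmaCompact s1 c1
  refine ⟨m, c, Φ, c1, o1, s1, k1, fun hc => H.nc ?_, lieA H.emb, inferInstance, inferInstance,
    inferInstance, m, b, aut c, mem_aut_iff b hφ, ⟨ContinuousMulEquiv.refl _⟩⟩
  obtain ⟨K, hK, hK1⟩ := exists_compact_mem_nhds (1 : G)
  obtain ⟨t, ht⟩ := isCompact_univ.elim_finite_subcover (fun g : G => Φ '' ((g * ·) '' interior K))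
    (fun g => o1 _ (isOpenMap_mul_left g _ isOpen_interior)) fun a _ => by
      obtain ⟨g, rfl⟩ := s1 a
      exact Set.mem_iUnion.2 ⟨g, g, ⟨1, mem_interior_iff_mem_nhds.2 hK1, mul_one g⟩, rfl⟩
  haveI := H.fin
  refine ⟨(t.isCompact_biUnion fun g _ => isCompact_iUnion fun z : Subgroup.center G =>
    hK.image (f := fun k => z.1 * (g * k)) (by fun_prop)).of_isClosed_subset isClosed_univ
    fun x _ => ?_⟩
  obtain ⟨g, hg, _, ⟨k, hk, rfl⟩, e⟩ := Set.mem_iUnion₂.1 (ht (Set.mem_univ (Φ x)))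
  refine Set.mem_iUnion₂.2 ⟨g, hg, Set.mem_iUnion.2 ⟨⟨x * (g * k)⁻¹, ?_⟩, k, interior_subset hk,
    inv_mul_cancel_right x (g * k)⟩⟩
  rw [← k1, MonoidHom.mem_ker, map_mul, map_inv, ← e, mul_inv_cancel]

end lie

/-- every quotient by the centre is an adjoint group -/
theorem isAdj_of (H : Hyp ρ) {Q : Type} [Group Q] [TopologicalSpace Q] (π : G →* Q)
    (hc : Continuous π) (ho : IsOpenMap π) (hs : Function.Surjective π)
    (hk : π.ker = Subgroup.center G) : IsAdj Q := by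
  obtain ⟨m, c, Φ, c1, o1, s1, k1, nc, L, _, _, _, m', b, S, hS, ⟨e⟩⟩ := exists_ad H
  let f : Q ≃* Aut0 c := (QuotientGroup.quotientKerEquivOfSurjective π hs).symm.trans
    ((QuotientGroup.quotientMulEquivOfEq (hk.trans k1.symm)).trans
      (QuotientGroup.quotientKerEquivOfSurjective Φ s1))
  have hf : ∀ g, f (π g) = Φ g := fun g => by
    have : (QuotientGroup.quotientKerEquivOfSurjective π hs).symm (π g) = (g : G ⧸ π.ker) :=
      (MulEquiv.symm_apply_eq _).2 rfl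
    simp only [f, MulEquiv.trans_apply, this]
    rfl
  let f' : Q ≃ₜ* Aut0 c :=
    { f with
      continuous_toFun := (ho.isQuotientMap hc hs).continuous_iff.2 (c1.congr fun g => (hf g).symm)
      continuous_invFun := (o1.isQuotientMap c1 s1).continuous_iff.2 (hc.congr fun g =>
        (f.symm_apply_eq.2 (hf g).symm).symm) }
  exact ⟨fun h => nc f'.toHomeomorph.compactSpace, L, _, _, ‹_›, m', b, S, hS, ⟨f'.trans e⟩⟩

theorem isAdj_quot (H : Hyp ρ) : IsAdj (G ⧸ Subgroup.center G) :=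
  haveI := topGroup H.emb
  isAdj_of H (QuotientGroup.mk' _) QuotientGroup.continuous_mk QuotientGroup.isOpenMap_coe
    (QuotientGroup.mk'_surjective _) (QuotientGroup.ker_mk' _)

theorem isAdj (H : Hyp ρ) (h : Subgroup.center G = ⊥) : IsAdj G :=
  isAdj_of H (MonoidHom.id G) continuous_id IsOpenMap.id Function.surjective_id
    (by rw [h, MonoidHom.ker_id])

end Vale.Agent.P092RB
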