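import Vale.Agent.P092RB.Lp
import Vale.Agent.P092GP.Top
import Vale.Agent.P092TS.Tits

/-!
P092, real bridge (helper96): the final forms on the linear package.
-/

set_option linter.all false

open Matrix Filter Topology

namespace Vale.Agent.P092RB

open P092 P092.H793.Re P092GP

variable {k : Type} [NontriviallyNormedField k] {G : Type} [Group G] [TopologicalSpace G] {L : LD k G}

theorem lp_simple (H : L.Ok) (ht : L.Gp = ⊤) (N : Subgroup G) (hN : N.Normal) :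
    N ≤ Subgroup.center G ∨ N = ⊤ :=
  (P092TS.tits H fun g _ x hx => hN.conj_mem x hx g).symm.imp
    (fun h x hx => Subgroup.mem_center_iff.2 fun g => (h x hx g (ht ▸ Subgroup.mem_top g)).symm)
    fun h => top_le_iff.1 (ht ▸ h)

theorem lp_conn (H : L.LP) (hu : ¬ IsUltrametricDist k) (ht : L.Gp = ⊤) : PreconnectedSpace G :=
  haveI := (arch H.loc hu).1
  haveI := H.top
  conn H.ok H.emb ht

theorem ls_hyp (H : L.LS) (hu : ¬ IsUltrametricDist k) (ht : L.Gp = ⊤) :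
    ∃ (n : ℕ) (ρ : G →* SLn n), Hyp ρ :=
  hyp_of H.lp.ok H.lp.loc hu H.lp.cemb ht (lp_simple H.lp.ok ht)
    (H.cfin.subset fun g hg u _ => (Subgroup.mem_center_iff.1 hg u).symm).to_subtype

theorem ls_isAdj_quot (H : L.LS) (hu : ¬ IsUltrametricDist k) (ht : L.Gp = ⊤) :
    H259.Ad.IsAdj (G ⧸ Subgroup.center G) :=
  let ⟨_, _, h⟩ := ls_hyp H hu ht
  isAdj_quot h

theorem lp_rs (H : L.LP) (hu : ¬ IsUltrametricDist k) (ht : L.Gp = ⊤) (hz : Subgroup.center G = ⊥) :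
    H259.Ad.IsAdj G ∧ ∃ (n : ℕ) (ρ : G →* SLn n), RS ρ :=
  rs_of H.ok H.loc hu H.cemb ht (lp_simple H.ok ht) hz

theorem lp_r1 (H : L.LP) (hu : ¬ IsUltrametricDist k) (ht : L.Gp = ⊤) (hz : Subgroup.center G = ⊥)
    {r : ℕ} (hr : r = 1) {F : P092GK.FlD k G r} (hF : P092GK.Fl F) :
    ∃ (n : ℕ) (ρ : G →* SLn n) (w : Fin n → ℝ), P092RG.R1 ρ w := by
  subst hr
  haveI := H.prop
  exact r1_of H.ok H.loc hu H.cemb ht (lp_simple H.ok ht) hz hF

end Vale.Agent.P092RB
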